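import Crest.Agent.X262.End66.End
import Crest.Agent.X262.Sym65.Two

/-! The field-level hypersurface-section formula, unconditionally. -/

namespace Crest.Agent.X262.End66

theorem endStmt : EndStmt := endStmt_of Sym65.twoStmt

end Crest.Agent.X262.End66
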