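import Crest.Agent.X262.End66.Loc
import Crest.Agent.X262.Hb.Sat2
import Crest.Agent.X262.Bub96.Lat

/-!
# Row 262, road B (helper66): the invariants do not depend on the equations
-/

set_option autoImplicit false
set_option linter.unusedSectionVars false

noncomputable section

namespace Crest.Agent.X262.End66

open Crest.Agent.X277 Crest.Agent.X277.BD Crest.Agent.X277.BD.Cyc Polynomial
open Crest.Agent.X262.Geo (od od_eq_zero essFT_Rf)
open Crest.Agent.X262.Hb Crest.Agent.X262.Vb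
open Crest.Agent.X262.Bub96 (hv Tr)
open Crest.Agent.X262.Bub96.Tr (dot)
open Crest.Agent.X262.Node22 (chr chr_ne mem_Eb)
open Crest.Agent.X262.Tree87 (vv vvals ES TS TL TD)

variable {J : Type} [Fintype J] [DecidableEq J] {io : J → Type} [∀ j, Fintype (io j)]
  [∀ j, DecidableEq (io j)] {A A' : Type} [Fintype A] [Fintype A']
variable {E : Type} [Field E] [Algebra ℂ E] {T : Tgt io A} {T' : Tgt io A'}
  {I : Type} [Fintype I] {z : Cfg io I E} {c N : ℕ} {d : J → ℕ} {g : A → A'}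

/-- the obstruction space on a tree, from the rank only -/
theorem Eb_w {k : Type} [Field k] [Algebra ℂ k] [IsAlgClosed k] (D : TD d N z k) (hR : Rk T c d)
    (hN : ∀ a j, (c + 1) * T.k a j ≤ N) (hO : z.On T) :
    D.w.Eb T = (ES T.k D.t T.Nm).map (vvals T.k D.t D.sp) := by
  have h1 := D.on (fun a j => le_trans (Nat.le_mul_of_pos_left _ c.succ_pos) (hN a j)) hO
  rw [Tree87.Eb_eq, D.Rb_eq (Tree87.hz_jac T)
    (fun x => by rw [← Tree87.Nm_eq]; exact hR k D.t D.ok D.deg h1 x) hN,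
    Tree87.ES_congr (N' := T.Nm) fun x => (Tree87.Nm_eq T _).symm]

theorem finrank_Nm_of_rk (h : TL d N z) (hR : Rk T c d) (hN : ∀ a j, T.k a j ≤ N) (hO : z.On T)
    (q : I) : Module.finrank E (T.Nm (z.y q)) = c := by
  obtain ⟨k, _, _, _, ⟨D⟩⟩ := h
  rw [Tree87.Nm_eq, ← D.finrank_pR (Tree87.hz_jac T), ← Tree87.Nm_eq]
  exact hR k D.t D.ok D.deg (D.on hN hO) _

theorem jac_sub (hF : ∀ a, T'.F (g a) = T.F a) (y : Pnt io E) (w : Vr io → E) (a : A) :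
    T'.jac y w (g a) = T.jac y w a := by rw [jac_eq, jac_eq, hF]

theorem map_Eb (h : TL d N z) (hR : Rk T c d) (hN : ∀ a j, (c + 1) * T.k a j ≤ N)
    (hN' : ∀ b j, T'.k b j ≤ N) (hO : z.On T) (hF : ∀ a, T'.F (g a) = T.F a)
    (hk : ∀ a, T'.k (g a) = T.k a) (hL : ∀ b, Loc T (T'.F b)) :
    (z.Eb T').map (LinearMap.funLeft E E (Prod.map g id)) = z.Eb T := by
  refine le_antisymm ?_ fun σ hσ => ?_
  · rintro _ ⟨σ, hσ, rfl⟩
    obtain ⟨h1, h2⟩ := mem_Eb.1 hσ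
    refine mem_Eb.2 ⟨fun a => hk a ▸ h1 (g a), fun q => ?_⟩
    obtain ⟨w, hw⟩ := h2 q
    exact ⟨w, funext fun a => (jac_sub hF _ w a).symm.trans (congrFun hw (g a))⟩
  obtain ⟨k, _, _, _, ⟨D⟩⟩ := h
  have h1 : (fun x => chr (D.c x.2) (T.k x.1) * D.α (σ x)) ∈ D.w.Eb T := by
    rw [Cfg.Eb_gau T D.c_ne, Cfg.Eb_map]
    exact scl_mem (mem_mapS D.α hσ)
  rw [Eb_w D hR hN hO] at h1
  obtain ⟨s, hs, h2⟩ := h1
  obtain ⟨s', h3, h4⟩ := exists_lift D.ok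
    (D.on (fun a j => le_trans (Nat.le_mul_of_pos_left _ c.succ_pos) (hN a j)) hO) hL hs
  have h5 : vvals T'.k D.t D.sp s' ∈ D.w.Eb T' := mem_Eb.2
    ⟨fun b => (D.mem_V (hN' b)).2 ⟨_, h3 b, fun q => (Tree87.vv_eq_val _ _ _ _ _).symm⟩,
      fun q => by
        obtain ⟨w, -, hw⟩ := h4 (D.sp q)
        rw [D.y_eq]
        exact ⟨w, hw⟩⟩
  rw [Cfg.Eb_gau T' D.c_ne, Cfg.Eb_map] at h5
  obtain ⟨τ, hτ, h6⟩ := h5
  rw [← map_mem_mapS_iff D.α, mapS_map]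
  refine ⟨τ, hτ, funext fun x => mul_left_cancel₀ (chr_ne (D.c_ne x.2) (T.k x.1)) ?_⟩
  obtain ⟨w, h7, h8⟩ := h4 (D.sp x.2)
  have h9 : chr (D.c x.2) (T'.k (g x.1)) * τ (g x.1, x.2) = T'.jac _ w (g x.1) :=
    (congrFun h6 (g x.1, x.2)).trans (congrFun h8 (g x.1)).symm
  rw [hk, jac_sub hF, h7] at h9
  exact h9.trans (congrFun h2 x)

theorem cp_sub {B : Th} (hB : B.Ax) [Algebra.EssFiniteType ℂ E] (h : TL d N z) (hR : Rk T c d)
    (hN : ∀ a j, (c + 1) * T.k a j ≤ N) (hN' : ∀ b j, T'.k b j ≤ N) (hO : z.On T)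
    (hF : ∀ a, T'.F (g a) = T.F a) (hk : ∀ a, T'.k (g a) = T.k a) (hL : ∀ b, Loc T (T'.F b)) :
    B.cp (z.ea T) (z.Eb T) = B.cp (z.ea T') (z.Eb T') := by
  have he : z.ea T = fun x => z.ea T' (Prod.map g id x) :=
    funext fun x => congrArg (lw · (z.y x.2)) (hk x.1).symm
  rw [← map_Eb h hR hN hN' hO hF hk hL]
  refine hB.cp_iso fun V σ hσ => le_antisymm (he ▸ nm_funLeft_le _ σ) (nm_le.2 fun x => ?_)
  obtain ⟨w, hw⟩ := (mem_Eb.1 hσ).2 x.2
  rw [show σ x = T'.jac _ w x.1 from (congrFun hw x.1).symm]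
  refine (hL x.1).vd_le (h.nz x.2) (hO x.2) fun a => ?_
  rw [← jac_sub hF, hw]
  exact le_nm (z.ea T) V (LinearMap.funLeft E E (Prod.map g id) σ) (a, x.2)

theorem Same.cp_eq {B : Th} (hB : B.Ax) [Algebra.EssFiniteType ℂ E] (hS : Same T T')
    (h : TL d N z) (hR : Rk T c d) (hN : ∀ a j, (c + 1) * T.k a j ≤ N)
    (hN' : ∀ b j, (c + 1) * T'.k b j ≤ N) (hO : z.On T) :
    B.cp (z.ea T) (z.Eb T) = B.cp (z.ea T') (z.Eb T') := by
  have h1 : ∀ b j, (sum T T').k b j ≤ N := by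
    rintro (a | b) j
    · exact le_trans (Nat.le_mul_of_pos_left _ c.succ_pos) (hN a j)
    · exact le_trans (Nat.le_mul_of_pos_left _ c.succ_pos) (hN' b j)
  rw [cp_sub hB (T' := sum T T') (g := Sum.inl) h hR hN h1 hO (fun _ => rfl) (fun _ => rfl) ?_,
    cp_sub hB (T' := sum T T') (g := Sum.inr) h (hS.rk hR) hN' h1 ((hS.cfg_on h.nz).1 hO)
      (fun _ => rfl) (fun _ => rfl) ?_]
  · rintro (a | b)
    · exact hS.2 a
    · exact loc_of_mem (Ideal.subset_span ⟨b, rfl⟩)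
  · rintro (a | b)
    · exact loc_of_mem (Ideal.subset_span ⟨a, rfl⟩)
    · exact hS.1 b

theorem exists_bound (T : Tgt io A) (n : ℕ) : ∃ N, ∀ a j, n * T.k a j ≤ N :=
  ⟨∑ x : A × J, n * T.k x.1 x.2, fun a j => Finset.single_le_sum
    (f := fun x : A × J => n * T.k x.1 x.2) (fun _ _ => Nat.zero_le _) (Finset.mem_univ (a, j))⟩

theorem Same.vir_eq {B : Th} (hB : B.Ax) [Algebra.EssFiniteType ℂ E] (hS : Same T T')
    (hz : z.NZ) (h : ∀ W, TL d N (z.red (plV W))) (hR : Rk T c d)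
    (hN : ∀ a j, (c + 1) * T.k a j ≤ N) (hN' : ∀ b j, (c + 1) * T'.k b j ≤ N) {M : Type}
    (m : M → I) (Φ : MFam B io M) : vir B T z m Φ = vir B T' z m Φ := by
  refine finsum_congr fun W => finsum_congr fun hW => ?_
  rw [← hS.dv_eq hz]
  by_cases h0 : (z.dv T).val W = 1
  · rw [(od_eq_zero hW).2 h0, Int.cast_zero, zero_mul, zero_mul]
  have := essFT_Rf hW
  rw [trm, trm, exc, exc, Th.cq, Th.cq, ← hS.dv_eq hz,
    hS.cp_eq hB (h W) hR hN hN' (Cfg.on_red_of T (lnr_plV W) hz h0)]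

/-- **independence of the equations** -/
theorem eqiStmt : EqiStmt := by
  intro B hB J _ _ io _ _ A A' _ _ T T' c d hR hS M _ Φ
  obtain ⟨N, hN⟩ := exists_bound T (c + 1)
  obtain ⟨N', hN'⟩ := exists_bound T' (c + 1)
  exact gw_congr (N := max N N') fun K K₀ I _ _ _ _ _ _ _ ξ m θ _ hn =>
    hS.vir_eq hB (fun _ => Bub96.nz_pt ξ _) (fun W => Bub96.tl_red hn _) hR
      (fun a j => (hN a j).trans (le_max_left _ _)) (fun b j => (hN' b j).trans (le_max_right _ _))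
      m Φ

end Crest.Agent.X262.End66
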