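import Crest.Agent.X262.End66.Defs
import Crest.Agent.X262.Vb.Bas1

/-!
# Row 262, road B (helper66): the invariants do not depend on the numbering
-/

set_option autoImplicit false
set_option linter.unusedSectionVars false

noncomputable section

namespace Crest.Agent.X262.End66

open Crest.Agent.X277 Crest.Agent.X277.BD Polynomial
open Crest.Agent.X262.Hb Crest.Agent.X262.Vb
open Crest.Agent.X262.Bub96 (hv Tr)
open Crest.Agent.X262.Bub96.Tr (dot)

variable {J : Type} [Fintype J] [DecidableEq J] {io : J → Type} [∀ j, Fintype (io j)]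
  [∀ j, DecidableEq (io j)] {A : Type} [Fintype A]
variable {J' : Type} [Fintype J'] [DecidableEq J'] {io' : J' → Type} [∀ j, Fintype (io' j)]
  [∀ j, DecidableEq (io' j)]
variable {E E' : Type} [Field E] [Algebra ℂ E] [Field E'] [Algebra ℂ E']

theorem mxf_congr {ι ι' : Type} [Fintype ι] [Fintype ι'] {s : ι → E} {s' : ι' → E}
    (h : Set.range s = Set.range s') : mxf ℂ s = mxf ℂ s' := by
  classical
  unfold mxf
  congr 1
  apply Finset.coe_injective
  simpa using h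

namespace Rx

variable (r : Rx io io')

theorem all {p : (j : J') → io' j → Prop} : (∀ j i, p j i) ↔ ∀ j i, p (r.e j) (r.ei j i) :=
  r.e.surjective.forall.trans (forall_congr' fun j => (r.ei j).surjective.forall)

theorem ln_pt (y : Pnt io' E) (j : J) : ln (r.pt y) j = ln y (r.e j) :=
  mxf_congr ((r.ei j).surjective.range_comp (y (r.e j)))

theorem lw_pt (y : Pnt io' E) (κ : J → ℕ) : lw κ (r.pt y) = lw (fun j => κ (r.e.symm j)) y := by
  simp only [lw, ln_pt]
  exact Fintype.sum_equiv r.e _ _ fun j => by simp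

theorem dot_eq (κ : J → ℕ) (d : J' → ℕ) :
    dot κ (fun j => d (r.e j)) = dot (fun j => κ (r.e.symm j)) d :=
  Fintype.sum_equiv r.e _ _ fun j => by simp

theorem jac_tgt (T : Tgt io A) (y : Pnt io' E) (w : Vr io' → E) :
    (r.tgt T).jac y w = T.jac (r.pt y) fun v => w (r.vr v) := by
  funext a
  rw [Node22.jac_apply, Node22.jac_apply]
  refine (Fintype.sum_equiv r.vr _ _ fun v => ?_).symm
  change pv (r.pt y) _ * _ = pv y (MvPolynomial.pderiv (r.vr v) (MvPolynomial.rename r.vr _)) * _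
  rw [MvPolynomial.pderiv_rename r.vr.injective, pv_rename]

theorem Nm_tgt (T : Tgt io A) (y : Pnt io' E) : (r.tgt T).Nm y = T.Nm (r.pt y) := by
  ext n
  refine ⟨fun ⟨w, hw⟩ => ⟨_, (r.jac_tgt T y w).symm.trans hw⟩, fun ⟨w, hw⟩ =>
    ⟨fun v => w (r.vr.symm v), ?_⟩⟩
  rw [jac_tgt]
  simpa using hw

variable {I : Type} [Fintype I]

/-- configurations -/
def cfg (z : Cfg io' I E) : Cfg io I E where
  y q := r.pt (z.y q)
  V κ := z.V fun j => κ (r.e.symm j)

theorem cfg_gau (c : I → J' → E) (z : Cfg io' I E) :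
    r.cfg (z.gau c) = (r.cfg z).gau fun q j => c q (r.e j) :=
  Cfg.ext (fun _ => rfl) fun κ => by
    change sclS _ _ = sclS _ _
    congr 1
    funext q
    exact (Fintype.prod_equiv r.e _ _ fun j => by simp).symm

theorem cfg_red (p : Pl ℂ E ℂ E') (z : Cfg io' I E) : r.cfg (z.red p) = (r.cfg z).red p := by
  have h : (r.cfg z).nrm p.V = fun q j => z.nrm p.V q (r.e j) := by
    funext q j
    exact congrArg (fun a : BD ℂ E => (a.gen p.V)⁻¹) (r.ln_pt (z.y q) j)
  rw [Cfg.red, Cfg.red, h, ← cfg_gau]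
  rfl

theorem sv_tgt (T : Tgt io A) (z : Cfg io' I E) : z.sv (r.tgt T) = (r.cfg z).sv T :=
  funext fun _ => r.pv_rename _ _

theorem ea_tgt (T : Tgt io A) (z : Cfg io' I E) : z.ea (r.tgt T) = (r.cfg z).ea T :=
  funext fun _ => (r.lw_pt _ _).symm

theorem dv_tgt (T : Tgt io A) (z : Cfg io' I E) : z.dv (r.tgt T) = (r.cfg z).dv T := by
  rw [Cfg.dv, Cfg.dv, sv_tgt, ea_tgt]

theorem Eb_tgt (T : Tgt io A) (z : Cfg io' I E) : z.Eb (r.tgt T) = (r.cfg z).Eb T := by
  simp only [Cfg.Eb, Nm_tgt]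
  rfl

theorem vir_tgt (B : Th) (T : Tgt io A) (z : Cfg io' I E) {M : Type} (m : M → I)
    (Φ : MFam B io M) : vir B (r.tgt T) z m (r.fam Φ) = vir B T (r.cfg z) m Φ := by
  simp only [vir, trm, exc, dv_tgt, ea_tgt, Eb_tgt, ← cfg_red]
  rfl

variable {d : J' → ℕ} {K L : Type} [Field K] [Algebra ℂ K] [Field L] [Algebra ℂ L]

omit [Algebra ℂ K] in
theorem cp_iff (f : (j : J') → io' j → K[X]) :
    Cp d f ↔ Cp (io := io) (fun j => d (r.e j)) fun j i => f (r.e j) (r.ei j i) :=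
  and_congr r.all (and_congr
    (r.e.surjective.forall.trans (forall_congr' fun j => (r.ei j).surjective.exists))
    (r.e.surjective.forall.trans (forall_congr' fun j => by
      rw [← (r.ei j).surjective.range_comp (f (r.e j))]; rfl)))

/-- data -/
def dat {I : Type} (ξ : Dat io' d I K) : Dat io (fun j => d (r.e j)) I K where
  f j i := ξ.f (r.e j) (r.ei j i)
  x := ξ.x
  cp := (r.cp_iff ξ.f).1 ξ.cp

theorem dat_surjective {I : Type} :
    Function.Surjective (r.dat : Dat io' d I K → Dat io (fun j => d (r.e j)) I K) := by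
  rintro ⟨f, x, h⟩
  obtain ⟨f', rfl⟩ := r.pt_surjective (E := K[X]) f
  exact ⟨⟨f', x, (r.cp_iff f').2 h⟩, rfl⟩

theorem cfg_dat (ξ : Dat io' d I K) : (r.dat ξ).cfg = r.cfg ξ.cfg :=
  Cfg.ext (fun _ => rfl) fun κ => by
    change Submodule.map (ξ.evl _) (degreeLE K (dot κ _ : ℕ)) = Submodule.map _ _
    rw [r.dot_eq]

theorem nrm_dat {I : Type} (ξ : Dat io' d I K) (κ : J → ℕ) :
    (r.dat ξ).Nrm κ ↔ ξ.Nrm fun j => κ (r.e.symm j) := by
  simp only [Dat.Nrm, r.dot_eq, ← r.lw_pt]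
  rfl

theorem nrmUp_dat {I : Type} (ξ : Dat io' d I K) (N : ℕ) : (r.dat ξ).NrmUp N ↔ ξ.NrmUp N := by
  refine ⟨fun h κ hκ => ?_, fun h κ hκ => (r.nrm_dat ξ κ).2 (h _ fun j => hκ _)⟩
  simpa using (r.nrm_dat ξ _).1 (h (fun j => κ (r.e j)) fun j => hκ _)

theorem eqv_dat {I : Type} (ξ η : Dat io' d I K) : (r.dat ξ).Eqv (r.dat η) ↔ ξ.Eqv η := by
  refine ⟨fun ⟨g, c, h1, h2, h3, h4⟩ => ⟨g, fun j => c (r.e.symm j), h1, fun _ => h2 _,
    r.all.2 fun j i => ?_, h4⟩, fun ⟨g, c, h1, h2, h3, h4⟩ =>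
    ⟨g, fun j => c (r.e j), h1, fun _ => h2 _, fun _ _ => h3 _ _, h4⟩⟩
  simp only [Equiv.symm_apply_apply]
  exact h3 j i

theorem crd_dat {I : Type} (ξ : Dat io' d I K) : (r.dat ξ).crd = ξ.crd := by
  ext t
  refine or_congr_left (r.e.surjective.exists.trans (exists_congr fun j =>
    (r.ei j).surjective.exists.trans (exists_congr fun i => (r.ei j).surjective.exists))).symm

theorem mdim_eq (n : ℕ) : mdim io (fun j => d (r.e j)) n = mdim io' d n := by
  unfold mdim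
  rw [Fintype.sum_equiv r.e _ (fun j => Fintype.card (io' j) * (d j + 1) - 1) fun j => by
    rw [Fintype.card_congr (r.ei j)]]

theorem univ_dat (ξ : Dat io' d I K) : (r.dat ξ).Univ ↔ ξ.Univ := by
  rw [Dat.Univ, crd_dat, mdim_eq]
  rfl

theorem over_dat {M : Type} [Fintype M] (ξ : Dat io' d I L) (m : M → I) (θ : K →ₐ[ℂ] L) :
    Over (r.dat ξ) m θ ↔ Over ξ m θ :=
  r.dat_surjective.exists.trans (exists_congr fun ξ₀ =>
    and_congr (r.univ_dat ξ₀) (r.eqv_dat (ξ₀.map θ) (ξ.res m)))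

theorem gw_tgt (B : Th) (T : Tgt io A) (d : J' → ℕ) {M : Type} [Fintype M] (Φ : MFam B io M) :
    GW B (r.tgt T) d (r.fam Φ) = GW B T (fun j => d (r.e j)) Φ := by
  have key : IsGW B (r.tgt T) d (r.fam Φ) = IsGW B T (fun j => d (r.e j)) Φ :=
    funext fun v => propext (exists_congr fun N =>
      ⟨fun h K K₀ I _ _ _ _ _ _ _ => r.dat_surjective.forall.2 fun ξ m θ ho hn => by
        rw [cfg_dat, ← vir_tgt]
        exact h K K₀ I ξ m θ ((r.over_dat ξ m θ).1 ho) ((r.nrmUp_dat ξ N).1 hn),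
      fun h K K₀ I _ _ _ _ _ _ _ ξ m θ ho hn => by
        rw [vir_tgt, ← cfg_dat]
        exact h K K₀ I _ m θ ((r.over_dat ξ m θ).2 ho) ((r.nrmUp_dat ξ N).2 hn)⟩)
  unfold GW
  rw [key]

end Rx

/-- **renumbering** -/
theorem rxStmt : RxStmt := by
  intro B J _ _ io _ _ J' _ _ io' _ _ A _ r T d d' h M _ Φ
  obtain rfl : d = fun j => d' (r.e j) := funext fun j => (h j).symm
  exact r.gw_tgt B T d' Φ

end Crest.Agent.X262.End66
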