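import Crest.Agent.X262.Vb.Defs

/-!
# Row 262, road B (helper66): change of target

* `add T g`, `sum T T'` : more equations;  `Loc T g` : `g` is locally in the ideal of `T`;
  `Same T T'` : the same subscheme;  `Rk T c d` : constant rank along the curves of degree `d`;
* `Rx io io'` : a renumbering of the factors and of the coordinates;
* `gw_congr`;  the statements `RxStmt`, `EqiStmt`, `EndStmt`.
-/

set_option autoImplicit false
set_option linter.unusedSectionVars false

noncomputable section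

namespace Crest.Agent.X262.End66

open Crest.Agent.X277 Crest.Agent.X277.BD
open Crest.Agent.X262.Hb Crest.Agent.X262.Vb
open Crest.Agent.X262.Bub96 (hv Tr)
open Crest.Agent.X262.Bub96.Tr (dot)

variable {J : Type} [Fintype J] [DecidableEq J] {io : J → Type} [∀ j, Fintype (io j)]
  [∀ j, DecidableEq (io j)] {A A' : Type} [Fintype A] [Fintype A']
variable {J' : Type} [Fintype J'] [DecidableEq J'] {io' : J' → Type} [∀ j, Fintype (io' j)]
  [∀ j, DecidableEq (io' j)]

/-- one more equation -/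
def add (T : Tgt io A) {g : MvPolynomial (Vr io) ℂ} {kg : J → ℕ} (hg : MH g kg) :
    Tgt io (Option A) where
  F a := a.elim g T.F
  k a := a.elim kg T.k
  hom a := by
    cases a
    · exact hg
    · exact T.hom _

/-- both systems of equations -/
def sum (T : Tgt io A) (T' : Tgt io A') : Tgt io (A ⊕ A') where
  F := Sum.elim T.F T'.F
  k := Sum.elim T.k T'.k
  hom a := by
    cases a
    · exact T.hom _
    · exact T'.hom _

/-- near every point of `T` the polynomial `g` lies in the ideal of `T` -/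
def Loc (T : Tgt io A) (g : MvPolynomial (Vr io) ℂ) : Prop :=
  ∀ (E : Type) [Field E] [Algebra ℂ E] (η : Pnt io E), NZ η → T.On η →
    ∃ h, pv η h ≠ 0 ∧ h * g ∈ Ideal.span (Set.range T.F)

/-- two systems of equations for one subscheme -/
def Same (T : Tgt io A) (T' : Tgt io A') : Prop := (∀ b, Loc T (T'.F b)) ∧ ∀ a, Loc T' (T.F a)

/-- the Jacobian has rank `c` along all genus zero curves of multidegree `d` -/
def Rk (T : Tgt io A) (c : ℕ) (d : J → ℕ) : Prop :=
  ∀ (E : Type) [Field E] [Algebra ℂ E] [IsAlgClosed E] (t : Tr E J io), t.OK → t.deg = d →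
    (∀ x, T.On (t.ev x)) → ∀ x, Module.finrank E (T.Nm (t.ev x)) = c

theorem rk_of_good {T : Tgt io A} {c : ℕ} {d : J → ℕ} (h : Good T c d) : Rk T c d := by
  obtain ⟨-, S, hS⟩ := h
  exact fun E _ _ _ t h1 h2 h3 x => (hS E t h1 h2 h3 x).1

theorem Same.symm {T : Tgt io A} {T' : Tgt io A'} (h : Same T T') : Same T' T := ⟨h.2, h.1⟩

theorem loc_of_mem {T : Tgt io A} {g : MvPolynomial (Vr io) ℂ}
    (h : g ∈ Ideal.span (Set.range T.F)) : Loc T g :=
  fun _ _ _ _ _ _ => ⟨1, by simp [pv], by rwa [one_mul]⟩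

theorem same_of_span {T : Tgt io A} {T' : Tgt io A'}
    (h : Ideal.span (Set.range T.F) = Ideal.span (Set.range T'.F)) : Same T T' :=
  ⟨fun b => loc_of_mem (h.ge (Ideal.subset_span ⟨b, rfl⟩)),
    fun a => loc_of_mem (h.le (Ideal.subset_span ⟨a, rfl⟩))⟩

/-- a renumbering of the factors and of the coordinates -/
structure Rx (io : J → Type) (io' : J' → Type) where
  /-- the factors -/
  e : J ≃ J'
  /-- the coordinates -/
  ei : ∀ j, io j ≃ io' (e j)

namespace Rx

variable (r : Rx io io')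

/-- the variables -/
def vr : Vr io ≃ Vr io' := Equiv.sigmaCongr r.e r.ei

/-- the points -/
def pt {E : Type} (y : Pnt io' E) : Pnt io E := fun j i => y (r.e j) (r.ei j i)

theorem mh {q : MvPolynomial (Vr io) ℂ} {κ : J → ℕ} (h : MH q κ) :
    MH (MvPolynomial.rename r.vr q) fun j => κ (r.e.symm j) := by
  intro s hs
  obtain ⟨u, rfl, hu⟩ := MvPolynomial.coeff_rename_ne_zero _ _ _ hs
  rw [← h hu]
  funext j
  obtain ⟨j, rfl⟩ := r.e.surjective j
  rw [Equiv.symm_apply_apply, Finsupp.weight_apply, Finsupp.weight_apply,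
    Finsupp.sum_mapDomain_index (by simp) (by simp [add_smul]), Finsupp.sum, Finsupp.sum,
    Finset.sum_apply, Finset.sum_apply]
  refine Finset.sum_congr rfl fun v _ => ?_
  change u v • (Pi.single (r.e v.1) 1 : J' → ℕ) (r.e j) = u v • (Pi.single v.1 1 : J → ℕ) j
  simp [Pi.single_apply]

/-- the target -/
def tgt (T : Tgt io A) : Tgt io' A where
  F a := MvPolynomial.rename r.vr (T.F a)
  k a j := T.k a (r.e.symm j)
  hom a := r.mh (T.hom a)

/-- the classes -/
def fam {B : Th} {M : Type} (Φ : MFam B io M) : MFam B io' M :=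
  fun E _ _ y => Φ E fun q => r.pt (y q)

theorem pv_rename {E : Type} [Field E] [Algebra ℂ E] (y : Pnt io' E) (q : MvPolynomial (Vr io) ℂ) :
    pv y (MvPolynomial.rename r.vr q) = pv (r.pt y) q := MvPolynomial.aeval_rename _ _ _

theorem on_tgt {E : Type} [Field E] [Algebra ℂ E] (T : Tgt io A) (y : Pnt io' E) :
    (r.tgt T).On y ↔ T.On (r.pt y) := forall_congr' fun a => by rw [← pv_rename]; rfl

theorem nz_pt {E : Type} [Field E] (y : Pnt io' E) : NZ (r.pt y) ↔ NZ y :=
  (forall_congr' fun j => (r.ei j).exists_congr_left.trans (by simp [pt])).trans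
    (r.e.surjective.forall (p := fun j => ∃ i, y j i ≠ 0)).symm

theorem pt_surjective {E : Type} : Function.Surjective (r.pt : Pnt io' E → Pnt io E) := fun y =>
  ⟨Equiv.piCongrLeft (fun j => io' j → E) r.e fun j i => y j ((r.ei j).symm i), by
    funext j i
    simp [pt]⟩

end Rx

/-- equal virtual numbers give equal invariants -/
theorem gw_congr {B : Th} {T : Tgt io A} {T' : Tgt io A'} {d : J → ℕ} {M : Type} [Fintype M]
    {Φ Ψ : MFam B io M} {N : ℕ}
    (h : ∀ (K K₀ I : Type) [Field K] [Algebra ℂ K] [Algebra.EssFiniteType ℂ K] [Field K₀]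
      [Algebra ℂ K₀] [Algebra.EssFiniteType ℂ K₀] [Fintype I] (ξ : Dat io d I K) (m : M → I)
      (θ : K₀ →ₐ[ℂ] K), Over ξ m θ → ξ.NrmUp N → vir B T ξ.cfg m Φ = vir B T' ξ.cfg m Ψ) :
    GW B T d Φ = GW B T' d Ψ := by
  have key : IsGW B T d Φ = IsGW B T' d Ψ := funext fun v => propext
    ⟨fun ⟨N', h'⟩ => ⟨max N N', fun K K₀ I _ _ _ _ _ _ _ ξ m θ ho hn =>
      (h K K₀ I ξ m θ ho fun κ hκ => hn κ fun j => (hκ j).trans (le_max_left _ _)).symm.trans
        (h' K K₀ I ξ m θ ho fun κ hκ => hn κ fun j => (hκ j).trans (le_max_right _ _))⟩,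
    fun ⟨N', h'⟩ => ⟨max N N', fun K K₀ I _ _ _ _ _ _ _ ξ m θ ho hn =>
      (h K K₀ I ξ m θ ho fun κ hκ => hn κ fun j => (hκ j).trans (le_max_left _ _)).trans
        (h' K K₀ I ξ m θ ho fun κ hκ => hn κ fun j => (hκ j).trans (le_max_right _ _))⟩⟩
  unfold GW
  rw [key]

/-- renumbering -/
def RxStmt : Prop :=
  ∀ (B : Th) {J : Type} [Fintype J] [DecidableEq J] {io : J → Type} [∀ j, Fintype (io j)]
    [∀ j, DecidableEq (io j)] {J' : Type} [Fintype J'] [DecidableEq J'] {io' : J' → Type}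
    [∀ j, Fintype (io' j)] [∀ j, DecidableEq (io' j)] {A : Type} [Fintype A] (r : Rx io io')
    (T : Tgt io A) (d : J → ℕ) (d' : J' → ℕ), (∀ j, d' (r.e j) = d j) →
    ∀ {M : Type} [Fintype M] (Φ : MFam B io M), GW B (r.tgt T) d' (r.fam Φ) = GW B T d Φ

/-- independence of the equations -/
def EqiStmt : Prop :=
  ∀ (B : Th), B.Ax → ∀ {J : Type} [Fintype J] [DecidableEq J] {io : J → Type}
    [∀ j, Fintype (io j)] [∀ j, DecidableEq (io j)] {A A' : Type} [Fintype A] [Fintype A']
    (T : Tgt io A) (T' : Tgt io A') (c : ℕ) (d : J → ℕ), Rk T c d → Same T T' →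
    ∀ {M : Type} [Fintype M] (Φ : MFam B io M), GW B T d Φ = GW B T' d Φ

/-- a hypersurface section of degree zero on the curves -/
def EndStmt : Prop :=
  ∀ (B : Th), B.Ax → ∀ {J : Type} [Fintype J] [DecidableEq J] {io : J → Type}
    [∀ j, Fintype (io j)] [∀ j, DecidableEq (io j)] {A : Type} [Fintype A] (T : Tgt io A)
    {g : MvPolynomial (Vr io) ℂ} {kg : J → ℕ} (hg : MH g kg) (c : ℕ) (d : J → ℕ), g ≠ 0 →
    dot kg d = 0 → Good T c d → Rk (add T hg) (c + 1) d →
    ∀ {M : Type} [Fintype M] (Φ : MFam B io M) (q₀ : M), MCls B T Φ →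
    GW B T d (M := M) (fun E _ _ y => B.c1 (lw kg (y q₀)) * Φ E y) = GW B (add T hg) d Φ

end Crest.Agent.X262.End66
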