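import Crest.Agent.X262.End66.Defs
import Crest.Agent.X262.Vb.Bas1
import Crest.Agent.X262.Tree87.T4
import Crest.Agent.X262.Syz.Syz

/-!
# Row 262, road B (helper66): local membership in the ideal of a target

values, derivatives and norms; lifting of normal sections along a tree.
-/

set_option autoImplicit false
set_option linter.unusedSectionVars false

noncomputable section

namespace Crest.Agent.X262.End66

open Crest.Agent.X277 Crest.Agent.X277.BD Crest.Agent.X277.BD.Cyc Polynomial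
open Crest.Agent.X262.Hb Crest.Agent.X262.Vb
open Crest.Agent.X262.Bub96 (hv Tr)
open Crest.Agent.X262.Bub96.Tr (dot)
open Crest.Agent.X262.Node22 (scl chr vsc pv_scl jac_scl jac_apply)
open Crest.Agent.X262.Tree87 (MZ DL ev sb vv vdz ES TS)

variable {J : Type} [Fintype J] [DecidableEq J] {io : J → Type} [∀ j, Fintype (io j)]
  [∀ j, DecidableEq (io j)] {A A' : Type} [Fintype A] [Fintype A']
variable {E : Type} [Field E] [Algebra ℂ E] {T : Tgt io A} {T' : Tgt io A'}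
  {g h : MvPolynomial (Vr io) ℂ} {kg : J → ℕ} {y : Pnt io E}

theorem pv_mul (y : Pnt io E) (p q : MvPolynomial (Vr io) ℂ) : pv y (p * q) = pv y p * pv y q :=
  map_mul _ _ _

theorem pv_sum (y : Pnt io E) {ι : Type*} (s : Finset ι) (f : ι → MvPolynomial (Vr io) ℂ) :
    pv y (∑ i ∈ s, f i) = ∑ i ∈ s, pv y (f i) := map_sum _ _ _

/-- the derivative in the direction `w` -/
def dp (y : Pnt io E) (w : Vr io → E) (q : MvPolynomial (Vr io) ℂ) : E :=
  ∑ v, pv y (MvPolynomial.pderiv v q) * w v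

theorem jac_eq (T : Tgt io A) (y : Pnt io E) (w : Vr io → E) (a : A) :
    T.jac y w a = dp y w (T.F a) := jac_apply T y w a

theorem dp_mul (y : Pnt io E) (w : Vr io → E) (p q : MvPolynomial (Vr io) ℂ) :
    dp y w (p * q) = pv y p * dp y w q + pv y q * dp y w p := by
  simp only [dp, Derivation.leibniz, smul_eq_mul, pv, map_add, map_mul, add_mul,
    Finset.sum_add_distrib, Finset.mul_sum, mul_assoc]

theorem dp_sum (y : Pnt io E) (w : Vr io → E) {ι : Type*} (s : Finset ι)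
    (f : ι → MvPolynomial (Vr io) ℂ) : dp y w (∑ i ∈ s, f i) = ∑ i ∈ s, dp y w (f i) := by
  simp only [dp, map_sum, pv_sum, Finset.sum_mul]
  exact Finset.sum_comm

theorem pv_of_eq {u : A → MvPolynomial (Vr io) ℂ} (e : h * g = ∑ a, u a * T.F a) (y : Pnt io E) :
    pv y h * pv y g = ∑ a, pv y (u a) * pv y (T.F a) := by
  simpa only [pv_mul, pv_sum] using congrArg (pv y) e

theorem dp_of_eq {u : A → MvPolynomial (Vr io) ℂ} (e : h * g = ∑ a, u a * T.F a) (hO : T.On y)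
    (hg : pv y g = 0) (w : Vr io → E) : pv y h * dp y w g = ∑ a, pv y (u a) * T.jac y w a := by
  have := congrArg (dp y w) e
  simpa only [dp_mul, dp_sum, hg, hO _, zero_mul, add_zero, ← jac_eq] using this

namespace Loc

theorem ex (hL : Loc T g) (hy : NZ y) (hO : T.On y) :
    ∃ (h : MvPolynomial (Vr io) ℂ) (u : A → MvPolynomial (Vr io) ℂ), pv y h ≠ 0 ∧
      h * g = ∑ a, u a * T.F a := by
  obtain ⟨h, h0, h1⟩ := hL E y hy hO
  obtain ⟨u, hu⟩ := Ideal.mem_span_range_iff_exists_fun.1 h1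
  exact ⟨h, u, h0, hu.symm⟩

theorem on (hL : Loc T g) (hy : NZ y) (hO : T.On y) : pv y g = 0 := by
  obtain ⟨h, u, h0, e⟩ := hL.ex hy hO
  have := pv_of_eq e y
  simp only [hO _, mul_zero, Finset.sum_const_zero] at this
  exact (mul_eq_zero.1 this).resolve_left h0

theorem dp_eq_zero (hL : Loc T g) (hy : NZ y) (hO : T.On y) {w : Vr io → E}
    (hw : T.jac y w = 0) : dp y w g = 0 := by
  obtain ⟨h, u, h0, e⟩ := hL.ex hy hO
  have := dp_of_eq e hO (hL.on hy hO) w
  simp only [hw, Pi.zero_apply, mul_zero, Finset.sum_const_zero] at this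
  exact (mul_eq_zero.1 this).resolve_left h0

/-- the homogeneous form -/
theorem hom (hL : Loc T g) (hg : MH g kg) (hy : NZ y) (hO : T.On y) :
    ∃ (κ : J → ℤ) (h : MvPolynomial (Vr io) ℂ) (u : A → MvPolynomial (Vr io) ℂ), MZ h κ ∧
      pv y h ≠ 0 ∧ (∀ a, MZ (u a) fun j => κ j + kg j - T.k a j) ∧ h * g = ∑ a, u a * T.F a := by
  classical
  obtain ⟨h, u, h0, e⟩ := hL.ex hy hO
  let w : Vr io → J → ℤ := fun v => Pi.single v.1 1
  obtain ⟨κ, hκ⟩ : ∃ κ, pv y (MvPolynomial.weightedHomogeneousComponent w κ h) ≠ 0 := by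
    by_contra hn
    push Not at hn
    apply h0
    rw [← MvPolynomial.sum_weightedHomogeneousComponent w h, finsum_eq_sum _
      (MvPolynomial.weightedHomogeneousComponent_finsupp h), pv_sum]
    exact Finset.sum_eq_zero fun κ _ => hn κ
  refine ⟨κ, _, fun a => MvPolynomial.weightedHomogeneousComponent w _ (u a),
    MvPolynomial.weightedHomogeneousComponent_isWeightedHomogeneous _ _, hκ,
    fun a => MvPolynomial.weightedHomogeneousComponent_isWeightedHomogeneous _ _, ?_⟩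
  have h1 := congrArg (MvPolynomial.weightedHomogeneousComponent w (κ + fun j => (kg j : ℤ))) e
  rw [Syz.comp_mul w (MZ.of_MH hg), add_sub_cancel_right, map_sum] at h1
  rw [h1]
  exact Finset.sum_congr rfl fun a _ => Syz.comp_mul w (MZ.of_MH (T.hom a)) _

end Loc

/-! ### norms -/

section Norm

variable {V : RZ ℂ E} {γ : V.1.ValueGroup}

theorem exists_prim (hy : NZ y) (V : RZ ℂ E) : ∃ c : J → E, Prim V (scl c y) ∧
    ∀ (κ : J → ℕ) (x : E) (γ : V.1.ValueGroup),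
      V.v (chr c κ * x) ≤ γ ↔ V.v x ≤ γ * (lw κ y).val V := by
  let c : J → E := fun j => ((ln y j).gen V)⁻¹
  have hc : ∀ j, c j ≠ 0 := fun j => inv_ne_zero (gen_ne _ _)
  have hp : Prim V (scl c y) := prim_scl hy fun j => by rw [map_inv₀, v_gen]
  refine ⟨c, hp, fun κ x γ => ?_⟩
  have h1 := hp.val_lw κ
  rw [lw_scl hy hc, val_add, val_pr (Node22.chr_ne hc κ)] at h1
  rw [map_mul, ← mul_le_mul_iff_left₀ (val_pos (lw κ y) V), mul_right_comm,
    mul_comm (V.v (chr c κ)), h1, one_mul]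

theorem Loc.le_of (hL : Loc T g) (hp : Prim V y) (hO : T.On (redP (plV V) y)) :
    ∃ (h : MvPolynomial (Vr io) ℂ) (u : A → MvPolynomial (Vr io) ℂ), h * g = ∑ a, u a * T.F a ∧
      ∀ (x : E) (s : A → E), pv y h * x = ∑ a, pv y (u a) * s a → (∀ a, V.v (s a) ≤ γ) →
        V.v x ≤ γ := by
  obtain ⟨h, u, h0, e⟩ := hL.ex (Prim.nz_red (p := plV V) hp) hO
  refine ⟨h, u, e, fun x s h1 h2 => ?_⟩
  rw [← r_pv (lnr_plV V) fun j => (hp j).1] at h0
  have h3 : V.v (pv y h) = 1 := (Pl.r_ne_zero_iff (p := plV V)).1 h0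
  rw [← one_mul (V.v x), ← h3, ← map_mul, h1]
  refine V.v.map_sum_le fun a _ => ?_
  rw [map_mul]
  exact mul_le_of_le_one_of_le (RZ.le_one_iff.2 (pv_mem (fun j => (hp j).1) _)) (h2 a)

theorem Loc.v_le (hL : Loc T g) (hg : MH g kg) (hy : NZ y)
    (h : ∀ a, V.v (pv y (T.F a)) ≤ γ * (lw (T.k a) y).val V) :
    V.v (pv y g) ≤ γ * (lw kg y).val V := by
  rcases le_or_gt 1 γ with h1 | h1
  · exact (v_pv_le hy hg V).trans (le_mul_of_one_le_left' h1)
  obtain ⟨c, hp, hc⟩ := exists_prim hy V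
  have h2 : ∀ a, V.v (pv (scl c y) (T.F a)) ≤ γ := fun a => by
    rw [pv_scl (T.hom a)]
    exact (hc _ _ _).2 (h a)
  obtain ⟨h, u, e, h3⟩ := hL.le_of (γ := γ) hp fun a => by
    rw [← r_pv (lnr_plV V) fun j => (hp j).1]
    exact (Pl.r_eq_zero (p := plV V) (pv_mem (fun j => (hp j).1) _)).2 ((h2 a).trans_lt h1)
  rw [← hc, ← pv_scl hg]
  exact h3 _ _ (pv_of_eq e _) h2

theorem Loc.vd_le {b : A'} (hL : Loc T (T'.F b)) (hy : NZ y) (hO : T.On y) {w : Vr io → E}
    (h : ∀ a, V.v (T.jac y w a) ≤ γ * (lw (T.k a) y).val V) :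
    V.v (T'.jac y w b) ≤ γ * (lw (T'.k b) y).val V := by
  obtain ⟨c, hp, hc⟩ := exists_prim hy V
  have h1 := Node22.on_scl T hO c
  obtain ⟨f, u, e, h3⟩ := hL.le_of (γ := γ) hp (on_red T (lnr_plV V) (fun j => (hp j).1) h1)
  rw [← hc, ← jac_scl, jac_eq]
  refine h3 _ _ (dp_of_eq e h1 (hL.on hp.nz h1) _) fun a => ?_
  rw [jac_scl]
  exact (hc _ _ _).2 (h a)

end Norm

namespace Same

theorem on (h : Same T T') (hy : NZ y) : T.On y ↔ T'.On y :=
  ⟨fun hO b => (h.1 b).on hy hO, fun hO a => (h.2 a).on hy hO⟩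

theorem ker_jac (h : Same T T') (hy : NZ y) (hO : T.On y) :
    LinearMap.ker (T.jac y) = LinearMap.ker (T'.jac y) := by
  ext w
  exact ⟨fun hw => funext fun b => (jac_eq _ _ _ _).trans ((h.1 b).dp_eq_zero hy hO hw),
    fun hw => funext fun a =>
      (jac_eq _ _ _ _).trans ((h.2 a).dp_eq_zero hy ((h.on hy).1 hO) hw)⟩

theorem finrank_Nm (h : Same T T') (hy : NZ y) (hO : T.On y) :
    Module.finrank E (T.Nm y) = Module.finrank E (T'.Nm y) := by
  have h1 := LinearMap.finrank_range_add_finrank_ker (T.jac y)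
  have h2 := LinearMap.finrank_range_add_finrank_ker (T'.jac y)
  rw [h.ker_jac hy hO] at h1
  exact Nat.add_right_cancel (h1.trans h2.symm)

theorem rk (h : Same T T') {c : ℕ} {d : J → ℕ} (hR : Rk T c d) : Rk T' c d :=
  fun E _ _ _ t h1 h2 h3 x => by
    have h4 := fun x => (h.on (nz_ev t h1 x)).2 (h3 x)
    rw [← h.finrank_Nm (nz_ev t h1 x) (h4 x), hR E t h1 h2 h4]

variable {I : Type} [Fintype I] {z : Cfg io I E}

theorem cfg_on (h : Same T T') (hz : z.NZ) : z.On T ↔ z.On T' := forall_congr' fun q => h.on (hz q)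

theorem dv_eq (h : Same T T') (hz : z.NZ) : z.dv T = z.dv T' := by
  by_cases hO : z.On T
  · rw [Cfg.dv_of_on T hO, Cfg.dv_of_on T' ((h.cfg_on hz).1 hO)]
  refine ext' fun V => ?_
  rw [Cfg.val_dv T hO, Cfg.val_dv T' ((h.cfg_on hz).not.1 hO)]
  congr 1
  exact le_antisymm
    (nm_le.2 fun x => (h.2 x.1).v_le (T.hom _) (hz x.2) fun b => le_nm (z.ea T') V (z.sv T') (b, x.2))
    (nm_le.2 fun x => (h.1 x.1).v_le (T'.hom _) (hz x.2) fun a => le_nm (z.ea T) V (z.sv T) (a, x.2))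

end Same

/-! ### lifting along a tree -/

variable {k : Type} [Field k] [IsAlgClosed k]

/-- a function which is locally a quotient of forms is a form -/
theorem sat_p1 {e : ℤ} (f : Option k → k) (h : ∀ p₀, ∃ (m : ℤ) (u τ : k[X]), DL m u ∧
    DL (m + e) τ ∧ ev m p₀ u ≠ 0 ∧ ∀ p, ev m p u * f p = ev (m + e) p τ) :
    ∃ σ : k[X], DL e σ ∧ ∀ p, ev e p σ = f p := by
  let 𝔞 : Ideal k[X] :=
    { carrier := {u | ∃ τ : k[X], ∀ a, u.eval a * f (some a) = τ.eval a}
      add_mem' := fun ⟨τ, h1⟩ ⟨τ', h2⟩ => ⟨τ + τ', fun a => by simp [add_mul, h1, h2]⟩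
      zero_mem' := ⟨0, by simp⟩
      smul_mem' := fun c _ ⟨τ, h1⟩ => ⟨c * τ, fun a => by simp [mul_assoc, h1]⟩ }
  obtain ⟨G, hG⟩ := (IsPrincipalIdealRing.principal 𝔞).principal
  have h1 : (1 : k[X]) ∈ 𝔞 := by
    rw [hG]
    refine Ideal.mem_span_singleton.2 (isUnit_iff_degree_eq_zero.2 ?_).dvd
    by_contra h0
    obtain ⟨a, ha⟩ := IsAlgClosed.exists_root G h0
    obtain ⟨m, u, τ, -, -, h2, h3⟩ := h (some a)
    have h4 : u ∈ 𝔞 := ⟨τ, fun b => by simpa using h3 (some b)⟩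
    rw [hG] at h4
    exact h2 (by simpa using ha.dvd (Ideal.mem_span_singleton.1 h4))
  obtain ⟨σ, hσ⟩ := h1
  obtain ⟨m, u, τ, hu, hτ, h2, h3⟩ := h none
  have h4 : u * σ = τ := Polynomial.funext fun a => by
    simpa [← hσ] using h3 (some a)
  have h5 : DL e σ := by
    by_cases h0 : σ = 0
    · exact h0 ▸ DL.zero e
    have hu0 : u ≠ 0 := fun h => h2 (by rw [h, map_zero])
    have h6 := hτ.natDegree_le (h4 ▸ mul_ne_zero hu0 h0)
    rw [← h4, natDegree_mul hu0 h0] at h6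
    have h7 : m ≤ u.natDegree := le_of_not_gt fun h => h2 ((Tree87.DL_natDegree u).ev_none_eq_zero h)
    exact (Tree87.DL_natDegree σ).mono (by push_cast at h6; omega)
  refine ⟨σ, h5, fun p => ?_⟩
  cases p with
  | none => exact mul_left_cancel₀ h2 (by rw [h3, ← h4, Tree87.ev_mul hu h5])
  | some a => simpa using (hσ a).symm

variable [Algebra ℂ k] {t : Tr k J io}

/-- a normal section extends to further equations -/
theorem exists_lift (ht : t.OK) (hO : ∀ x, T.On (t.ev x)) (hL : ∀ b, Loc T (T'.F b))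
    {s : t.Vx → A → k[X]} (hs : s ∈ ES T.k t T.Nm) :
    ∃ s' ∈ TS T'.k t, ∀ x, ∃ w, T.jac (t.ev x) w = vv T.k t x s ∧
      T'.jac (t.ev x) w = vv T'.k t x s' := by
  obtain ⟨hs1, hs2⟩ := Tree87.mem_ES.1 hs
  choose w hw using hs2
  have key : ∀ v b, ∃ σ : k[X], DL (vdz T'.k t v b) σ ∧
      ∀ p, ev (vdz T'.k t v b) p σ = T'.jac (t.ev (v, p)) (w (v, p)) b := fun v b => by
    refine sat_p1 _ fun p₀ => ?_
    obtain ⟨κ, h, u, h1, h2, h3, e⟩ := (hL b).hom (T'.hom b) (nz_ev t ht (v, p₀)) (hO _)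
    have h4 := h1.sb (ht.natDegree_le v)
    have h5 : ∀ a, ∑ j, κ j * t.vd v j + vdz T'.k t v b =
        ∑ j, (κ j + T'.k b j - T.k a j) * t.vd v j + vdz T.k t v a := fun a => by
      simp only [vdz, dot, sub_mul, add_mul, Finset.sum_sub_distrib, Finset.sum_add_distrib]
      push_cast
      ring
    have h6 := fun a => ((h3 a).sb (ht.natDegree_le v)).1.mul_ev (Tree87.TS.dl hs1 v a)
    simp only [← h5] at h6
    refine ⟨_, _, ∑ a, sb (t.vg v) (u a) * s v a, h4.1, DL.sum fun a _ => (h6 a).1,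
      by rw [h4.2]; exact h2, fun p => ?_⟩
    rw [h4.2, jac_eq, map_sum]
    refine (dp_of_eq e (hO (v, p)) ((hL b).on (nz_ev t ht _) (hO _)) _).trans
      (Finset.sum_congr rfl fun a _ => ?_)
    rw [(h6 a).2, ((h3 a).sb (ht.natDegree_le v)).2, hw]
    rfl
  choose s' h1 h2 using key
  have h3 : ∀ x, T'.jac (t.ev x) (w x) = vv T'.k t x s' := fun x => funext fun b => (h2 x.1 b x.2).symm
  refine ⟨s', fun b => Tree87.isSec_of_same ht (fun v => Tree87.DL_nat.1 (h1 v b)) fun x x' hx => ?_,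
    fun x => ⟨w x, hw x, h3 x⟩⟩
  rw [← Tree87.vv_eq_val, ← Tree87.vv_eq_val, ← h3, ← h3, ← sub_eq_zero, ← Tree87.same_ev hx,
    ← Pi.sub_apply, ← map_sub, jac_eq]
  refine (hL b).dp_eq_zero (nz_ev t ht x) (hO x) ?_
  rw [map_sub, hw, Tree87.same_ev hx, hw, Tree87.same_vv hx hs1, sub_self]

end Crest.Agent.X262.End66
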