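import Crest.Agent.X262.Vb.Defs
import Crest.Agent.X262.Vb.Bas1
import Crest.Agent.X262.Vb37.Univ

/-!
# Row 262, road B (helper66): the marked points of the universal datum are generic points
-/

set_option autoImplicit false
set_option linter.unusedSectionVars false

noncomputable section

namespace Crest.Agent.X262.End66

open Crest.Agent.X277 Crest.Agent.X277.BD Polynomial
open Crest.Agent.X262.Vb Crest.Agent.X262.Vb37
open Crest.Agent.X262.Node22 (scl chr pv_scl chr_ne)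

variable {J : Type} [Fintype J] [DecidableEq J] {io : J → Type} [∀ j, Fintype (io j)]
  [∀ j, DecidableEq (io j)] {A : Type} [Fintype A] {d : J → ℕ}
variable {I M K L : Type} [Fintype I] [Fintype M] [Field K] [Algebra ℂ K] [Field L] [Algebra ℂ L]
  {g : MvPolynomial (Vr io) ℂ} {κ : J → ℕ}

theorem eqv_pv {ξ η : Dat io d I K} (h : ξ.Eqv η) (hg : MH g κ) (q : I) :
    pv (η.cfg.y q) g ≠ 0 ↔ pv (ξ.cfg.y q) g ≠ 0 := by
  obtain ⟨c, hc, e⟩ := eqv_cfg h
  rw [e, Cfg.gau_y, pv_scl hg, mul_ne_zero_iff_left (chr_ne (hc q) κ)]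

theorem univ_pv_none {ξ : Dat io d M K} (hu : ξ.Univ) {a b c : M} (h : Nm3 ξ a b c) (hg : MH g κ)
    (h0 : g ≠ 0) : pv (ξ.pt none) g ≠ 0 := by
  classical
  intro h1
  choose i0 hi0 using ξ.cp.2.1
  let p0 : (j : J) → io j × Fin (d j + 1) := fun j => (i0 j, Fin.last _)
  have hi := (indep_gen hu (p0 := p0) h hi0).2
  let Q : MvPolynomial (Ix p0 a b c) ℂ :=
    MvPolynomial.aeval (fun v : Vr io => cf p0 a b c MvPolynomial.X v.1 (v.2, Fin.last _)) g
  have key : ∀ {F : Type} [Field F] [Algebra ℂ F] (G : Ix p0 a b c → F) (y : Pnt io F),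
      (∀ j, y j (i0 j) ≠ 0) → (∀ j i (hi : (i, Fin.last _) ≠ p0 j),
        G (.inl ⟨j, _, hi⟩) = y j i / y j (i0 j)) →
      MvPolynomial.aeval G Q = chr (fun j => (y j (i0 j))⁻¹) κ * pv y g := fun G y hy hG => by
    rw [← pv_scl hg, ← AlgHom.comp_apply, MvPolynomial.comp_aeval]
    refine congrArg (fun f => MvPolynomial.aeval f g) (funext fun v => ?_)
    unfold cf
    split_ifs with h2
    · rw [map_one, scl, show v.2 = i0 v.1 from congrArg Prod.fst h2, inv_mul_cancel₀ (hy _)]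
    · rw [MvPolynomial.aeval_X, hG, scl, div_eq_inv_mul]
  have hQ : Q = 0 := hi (by
    rw [map_zero]
    exact (key (gen ξ p0 a b c) (ξ.pt none) hi0 fun _ _ _ => rfl).trans (by rw [h1, mul_zero]))
  let F := FractionRing (MvPolynomial (Vr io) ℂ)
  let y : Pnt io F := fun j i => algebraMap _ F (MvPolynomial.X (R := ℂ) (⟨j, i⟩ : Vr io))
  have hy : ∀ j, y j (i0 j) ≠ 0 := fun j =>
    (map_ne_zero_iff _ (IsFractionRing.injective _ F)).2 (MvPolynomial.X_ne_zero _)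
  have h2 := key (Sum.elim (fun v => y v.1 v.2.1.1 / y v.1 (i0 v.1)) 0) y hy fun _ _ _ => rfl
  rw [hQ, map_zero] at h2
  have h3 : pv y g = algebraMap _ F g := by
    change MvPolynomial.aeval (fun v => IsScalarTower.toAlgHom ℂ _ F (MvPolynomial.X v)) g = _
    rw [← MvPolynomial.comp_aeval, MvPolynomial.aeval_X_left]
    rfl
  exact mul_ne_zero (chr_ne (fun j => inv_ne_zero (hy j)) κ)
    (h3 ▸ (map_ne_zero_iff _ (IsFractionRing.injective _ F)).2 h0) h2.symm

theorem univ_pv {ξ : Dat io d M K} (hu : ξ.Univ) (a : M) (hg : MH g κ) (h0 : g ≠ 0) :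
    pv (ξ.cfg.y a) g ≠ 0 := by
  classical
  have h1 : 1 < (Finset.univ.erase a).card := by
    have := univ_card hu
    rw [Finset.card_erase_of_mem (Finset.mem_univ a), Finset.card_univ]
    omega
  obtain ⟨b, hb, c, hc, hbc⟩ := Finset.one_lt_card.1 h1
  obtain ⟨η, h2, h3, h4⟩ := univ_nm3 hu (Finset.ne_of_mem_erase hb).symm
    (Finset.ne_of_mem_erase hc).symm hbc
  rw [← eqv_pv h2 hg]
  change pv (η.pt (η.x a)) g ≠ 0
  rw [h3.1]
  exact univ_pv_none h4 h3 hg h0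

/-- the marked points satisfy no equation -/
theorem over_pv {ξ : Dat io d I L} {m : M → I} {θ : K →ₐ[ℂ] L} (h : Over ξ m θ) (a : M)
    (hg : MH g κ) (h0 : g ≠ 0) : pv (ξ.cfg.y (m a)) g ≠ 0 := by
  obtain ⟨ξ₀, h1, h2⟩ := h
  refine (eqv_pv h2 hg a).2 ?_
  rw [show (ξ₀.map θ).cfg.y a = mapP θ (ξ₀.cfg.y a) from
    funext fun j => funext fun i => dmap_pt θ ξ₀ _ j i, pv_map, _root_.map_ne_zero]
  exact univ_pv h1 a hg h0

theorem over_not_on {ξ : Dat io d I L} {m : M → I} {θ : K →ₐ[ℂ] L} (h : Over ξ m θ)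
    {T : Tgt io A} (h0 : ∃ a, T.F a ≠ 0) : ¬ ξ.cfg.On T := fun hO => by
  obtain ⟨a, ha⟩ := h0
  obtain ⟨q, -⟩ := h.choose_spec.1.1
  exact over_pv h q (T.hom a) ha (hO _ a)

end Crest.Agent.X262.End66
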