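import Crest.Agent.X262.End66.Eqi
import Crest.Agent.X262.End66.Gen
import Crest.Agent.X262.Vb.Loc
import Crest.Agent.X262.Tree87.Rank

/-!
# Row 262, road B (helper66): hypersurface sections of degree zero on the curves
-/

set_option autoImplicit false
set_option linter.unusedSectionVars false

noncomputable section

namespace Crest.Agent.X262.End66

open Crest.Agent.X277 Crest.Agent.X277.BD Crest.Agent.X277.Pst Crest.Agent.X277.BD.Cyc Polynomial
open Crest.Agent.X262.Geo (od od_eq_zero essFT_Rf)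
open Crest.Agent.X262.Hb Crest.Agent.X262.Vb
open Crest.Agent.X262.Bub96 (hv Tr)
open Crest.Agent.X262.Bub96.Tr (dot)
open Crest.Agent.X262.Node22 (scl chr chr_ne pv_scl mem_Eb)
open Crest.Agent.X262.Tree87 (TL)
open Crest.Agent.X262.Sym65 (PF PX sm i1 i2 qv cf Sup Liv LivX TwoStmt)

variable {J : Type} [Fintype J] [DecidableEq J] {io : J → Type} [∀ j, Fintype (io j)]
  [∀ j, DecidableEq (io j)] {A : Type} [Fintype A]
variable {K E : Type} [Field K] [Algebra ℂ K] [Field E] [Algebra ℂ E] {T : Tgt io A}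
  {I : Type} [Fintype I] {z : Cfg io I K} {g : MvPolynomial (Vr io) ℂ} {kg : J → ℕ} {q₀ : I}
  {B : Th}

theorem pv_congr (hg : MH g kg) {y y' : Pnt io K} (h : ∀ j, kg j ≠ 0 → y j = y' j) :
    pv y g = pv y' g := by
  let c : J → K := fun j => if kg j = 0 then 0 else 1
  have h1 : chr c kg = 1 := Finset.prod_eq_one fun j _ => by
    by_cases h0 : kg j = 0 <;> simp [c, h0]
  have h2 : scl c y = scl c y' := funext fun j => funext fun i => by
    by_cases h0 : kg j = 0
    · simp [scl, c, h0]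
    · rw [scl, scl, h j h0]
  rw [← one_mul (pv y g), ← one_mul (pv y' g), ← h1, ← pv_scl hg, ← pv_scl hg, h2]

theorem lw_congr {y y' : Pnt io K} (h : ∀ j, kg j ≠ 0 → y j = y' j) : lw kg y = lw kg y' :=
  Finset.sum_congr rfl fun j _ => by
    by_cases h0 : kg j = 0
    · simp [h0]
    · rw [ln, ln, h j h0]

/-- the configuration is constant in the factors of `kg` -/
structure Cst (kg : J → ℕ) (z : Cfg io I K) (q₀ : I) : Prop where
  y : ∀ q j, kg j ≠ 0 → z.y q j = z.y q₀ j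
  V : ∀ u, u ∈ z.V kg ↔ ∀ q, u q = u q₀

theorem Cst.red (h : Cst kg z q₀) (p : Pl ℂ K ℂ E) : Cst kg (z.red p) q₀ := by
  have h1 : ∀ q j, kg j ≠ 0 → z.nrm p.V q j = z.nrm p.V q₀ j := fun q j hj => by
    rw [Cfg.nrm, Cfg.nrm, ln, ln, h.y q j hj]
  have h2 : ∀ q, chr (z.nrm p.V q) kg = chr (z.nrm p.V q₀) kg := fun q =>
    Finset.prod_congr rfl fun j _ => by
      by_cases h0 : kg j = 0
      · simp [h0]
      · rw [h1 q j h0]
  have h3 : ∀ u, u ∈ (z.gau (z.nrm p.V)).V kg ↔ ∀ q, u q = u q₀ := fun u => by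
    rw [Cfg.gau_V, mem_sclS' fun q => chr_ne (Cfg.nrm_ne p.V z q) _, h.V]
    simp only [h2, mul_right_inj' (inv_ne_zero (chr_ne (Cfg.nrm_ne p.V z q₀) kg))]
  refine ⟨fun q j hj => funext fun i => ?_, fun u => ⟨fun hu => ?_, fun hu => ?_⟩⟩
  · change p.r (_ * _) = p.r (_ * _)
    rw [h1 q j hj, h.y q j hj]
  · let W : Submodule E (I → E) :=
      ⨅ q, LinearMap.eqLocus (LinearMap.proj q : (I → E) →ₗ[E] E) (LinearMap.proj q₀)
    have h4 : redS p ((z.gau (z.nrm p.V)).V kg) ≤ W := redS_le fun u hu _ =>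
      (Submodule.mem_iInf _).2 fun q => congrArg p.r ((h3 u).1 hu q)
    exact (Submodule.mem_iInf _).1 (h4 hu)
  · have h4 := Submodule.smul_mem _ (u q₀)
      (mem_redS p ((h3 fun _ => 1).2 fun _ => rfl) fun _ => one_mem _)
    rwa [show (u q₀ • fun _ : I => p.r 1) = u from funext fun q => by simp [hu q]] at h4

theorem hv_const {f : K[X]} {n : ℕ} (hn : n = 0) (h : f.natDegree ≤ n) (t : Option K) :
    hv n f t = f.coeff 0 := by
  subst hn
  cases t with
  | none => rfl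
  | some t => rw [eq_C_of_natDegree_le_zero h]; simp [hv]

theorem cst_cfg {d : J → ℕ} (ξ : Dat io d I K) (h : dot kg d = 0) (q₀ : I) : Cst kg ξ.cfg q₀ := by
  refine ⟨fun q j hj => funext fun i => ?_, fun u => ⟨?_, fun hu => ?_⟩⟩
  · have h0 : d j = 0 := (mul_eq_zero.1
      (Finset.sum_eq_zero_iff.1 h j (Finset.mem_univ j))).resolve_left hj
    exact (hv_const h0 (ξ.cp.1 j i) _).trans (hv_const h0 (ξ.cp.1 j i) _).symm
  · rintro ⟨σ, hσ, rfl⟩ q
    have h1 := natDegree_le_iff_degree_le.2 (mem_degreeLE.1 hσ)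
    exact (hv_const h h1 _).trans (hv_const h h1 _).symm
  · exact ⟨C (u q₀), mem_degreeLE.2 (degree_C_le.trans (Nat.cast_nonneg _)), funext fun q =>
      (hv_const h (by simp) _).trans (by rw [coeff_C_zero, hu q])⟩

theorem dv_add (hg : MH g kg) (h : Cst kg z q₀) (hO : ¬ z.On T) (h0 : pv (z.y q₀) g ≠ 0) :
    z.dv (add T hg) = z.dv T ⊓ (lw kg (z.y q₀) - pr ℂ (pv (z.y q₀) g)) := by
  refine ext' fun V => ?_
  have h1 : nm (z.ea (add T hg)) V (z.sv (add T hg)) =
      max (nm (z.ea T) V (z.sv T)) (V.v (pv (z.y q₀) g) / (lw kg (z.y q₀)).val V) := by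
    refine eq_of_forall_ge_iff fun γ => ?_
    rw [max_le_iff, nm_le, nm_le, div_le_iff₀ (val_pos _ _)]
    refine ⟨fun h2 => ⟨fun x => h2 (some x.1, x.2), h2 (none, q₀)⟩, fun h2 => ?_⟩
    rintro ⟨_ | a, q⟩
    · change V.v (pv (z.y q) g) ≤ γ * (lw kg (z.y q)).val V
      rw [pv_congr hg (h.y q), lw_congr (h.y q)]
      exact h2.2
    · exact h2.1 (a, q)
  rw [Cfg.val_dv _ fun h2 => h0 (h2 q₀ none), val_inf, Cfg.val_dv T hO, val_sub, val_pr h0, h1,
    ← inv_div (V.v _)]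
  have h2 : 0 < nm (z.ea T) V (z.sv T) := nm_pos fun h2 => hO ((Cfg.on_iff T).2 h2)
  have h3 : 0 < V.v (pv (z.y q₀) g) / (lw kg (z.y q₀)).val V := div_pos (RZ.pos h0) (val_pos _ _)
  rcases le_total (nm (z.ea T) V (z.sv T)) (V.v (pv (z.y q₀) g) / (lw kg (z.y q₀)).val V) with h4 | h4
  · rw [max_eq_right h4, min_eq_right (inv_anti₀ h2 h4)]
  · rw [max_eq_left h4, min_eq_left (inv_anti₀ h3 h4)]

theorem mem_Nm_add (hg : MH g kg) {y : Pnt io K}
    (h : Module.finrank K ((add T hg).Nm y) = Module.finrank K (T.Nm y) + 1) {n : Option A → K} :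
    n ∈ (add T hg).Nm y ↔ (fun a => n (some a)) ∈ T.Nm y := by
  have h1 : ∀ w a, (add T hg).jac y w (some a) = T.jac y w a := jac_sub (fun _ => rfl) y
  have h2 : ∀ n ∈ (add T hg).Nm y, (fun a => n (some a)) ∈ T.Nm y := by
    rintro _ ⟨w, rfl⟩
    exact ⟨w, funext fun a => (h1 w a).symm⟩
  refine ⟨h2 n, fun ⟨w, hw⟩ => ?_⟩
  obtain ⟨e, he, h3, h4⟩ : ∃ e ∈ (add T hg).Nm y, e none ≠ 0 ∧ ∀ a, e (some a) = 0 := by
    by_contra hn
    push Not at hn
    let f : (add T hg).Nm y →ₗ[K] T.Nm y := LinearMap.codRestrict _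
      ((LinearMap.funLeft K K some).domRestrict _) fun n => h2 n n.2
    have h5 : Function.Injective f := (injective_iff_map_eq_zero f).2 fun e he => by
      have h6 : ∀ a, e.1 (some a) = 0 := congrFun (congrArg Subtype.val he)
      refine Subtype.ext (funext fun a => ?_)
      cases a with
      | none => exact by_contra fun h7 => (hn e e.2 h7).elim fun a ha => ha (h6 a)
      | some a => exact h6 a
    have := LinearMap.finrank_le_finrank_of_injective h5
    omega
  have h5 : n = (add T hg).jac y w + ((n none - (add T hg).jac y w none) / e none) • e := by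
    funext a
    cases a with
    | none => simp [h3]
    | some a => simp [h4, h1, hw]
  rw [h5]
  exact add_mem ⟨w, rfl⟩ (Submodule.smul_mem _ _ he)

theorem cpz_add (hB : B.Ax) [Algebra.EssFiniteType ℂ K] (hg : MH g kg) (h : Cst kg z q₀)
    (hr : ∀ q, Module.finrank K ((add T hg).Nm (z.y q)) = Module.finrank K (T.Nm (z.y q)) + 1) :
    cpz B (add T hg) z = cpz B T z * (C (B.c1 (lw kg (z.y q₀))) - X) := by
  have h1 : ∀ σ, σ ∈ z.Eb (add T hg) ↔ (∀ q, σ (none, q) = σ (none, q₀)) ∧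
      LinearMap.funLeft K K (Prod.map some id) σ ∈ z.Eb T := fun σ => by
    rw [mem_Eb, mem_Eb, Option.forall, and_assoc]
    exact and_congr (h.V _) (and_congr_right fun _ => forall_congr' fun q => mem_Nm_add hg (hr q))
  let ι : (A × I → K) → Option A × I → K := fun τ x => x.1.elim 0 fun a => τ (a, x.2)
  have h2 : Ont (z.ea (add T hg)) (z.ea T) (LinearMap.funLeft K K (Prod.map some id))
      (z.Eb (add T hg)) :=
    ⟨fun V σ _ => nm_funLeft_le (a := z.ea (add T hg)) (Prod.map some id) σ, fun V σ hσ =>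
      ⟨ι (LinearMap.funLeft K K (Prod.map some id) σ), (h1 _).2 ⟨fun _ => rfl, ((h1 σ).1 hσ).2⟩, rfl,
        (nm_funLeft (a := z.ea (add T hg)) (g := Prod.map some id) (by
          rintro ⟨_ | a, q⟩ hx
          · rfl
          · exact (hx ⟨(a, q), rfl⟩).elim)).ge⟩⟩
  have h3 : (z.Eb (add T hg)).map (LinearMap.funLeft K K (Prod.map some id)) = z.Eb T :=
    le_antisymm (by rintro _ ⟨σ, hσ, rfl⟩; exact ((h1 σ).1 hσ).2)
      fun τ hτ => ⟨ι τ, (h1 _).2 ⟨fun _ => rfl, hτ⟩, rfl⟩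
  let e : Option A × I → K := fun x => x.1.elim 1 fun _ => 0
  have he : e ≠ 0 := fun h0 => one_ne_zero (congrFun h0 (none, q₀))
  have h4 : z.Eb (add T hg) ⊓ LinearMap.ker (LinearMap.funLeft K K (Prod.map some id)) = K ∙ e := by
    refine le_antisymm (fun σ hσ => Submodule.mem_span_singleton.2 ⟨σ (none, q₀), ?_⟩)
      ((Submodule.span_singleton_le_iff_mem _ _).2 ⟨(h1 _).2 ⟨fun _ => rfl, zero_mem _⟩, rfl⟩)
    funext ⟨a, q⟩
    cases a with
    | none => simpa [e] using (((h1 σ).1 hσ.1).1 q).symm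
    | some a => simpa [e] using (congrFun hσ.2 (a, q)).symm
  have h5 : -dst (z.ea (add T hg)) ⊥ e = lw kg (z.y q₀) := ext' fun V => by
    rw [val_neg, val_dst_bot he, inv_eq_iff_eq_inv]
    refine le_antisymm (nm_le.2 ?_) (by
      have := div_le_nm (z.ea (add T hg)) V e (none, q₀)
      change V.v 1 / (lw kg (z.y q₀)).val V ≤ _ at this
      rwa [map_one, one_div] at this)
    rintro ⟨_ | a, q⟩
    · change V.v 1 ≤ _ * (lw kg (z.y q)).val V
      rw [lw_congr (h.y q), inv_mul_cancel₀ (val_ne _ _), map_one]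
    · simp [e]
  rw [cpz, hB.cp_whitney h2, h3, h4, hB.cp_line he, h5, mul_comm, cpz]

theorem c1_lw_red (hB : B.Ax) (hz : z.NZ) (p : LP K E) (q : I) (κ : J → ℕ) :
    B.c1 (lw κ ((z.red p.toPl).y q)) = B.pb p (B.c1 (lw κ (z.y q))) := by
  have h := Cfg.pr_nrm hz p.V q
  change B.c1 (lw κ (redP p.toPl _)) = _
  rw [lw_red h, ← hB.pb_c1_res p (h.val_lw κ), Cfg.gau_y, lw_scl (hz q) (Cfg.nrm_ne p.V z q),
    map_add, hB.c1_pr, add_zero]

/-- the virtual number of a hypersurface section -/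
theorem vir_add_eq (h2 : TwoStmt) (hB : B.Ax) [Algebra.EssFiniteType ℂ K] (hg : MH g kg)
    {M : Type} {m : M → I} {a : M} (h : Cst kg z (m a)) (hR : Vb.Rk T z) (hO : ¬ z.On T)
    (h0 : pv (z.y (m a)) g ≠ 0)
    (hr : ∀ W, Dvs W → (z.red (plV W)).On (add T hg) → ∀ q,
      Module.finrank (Rf W) ((add T hg).Nm ((z.red (plV W)).y q)) =
        Module.finrank (Rf W) (T.Nm ((z.red (plV W)).y q)) + 1)
    {Φ : MFam B io M} (hΦ : MCls B T Φ) :
    vir B T z m (fun E _ _ y => B.c1 (lw kg (y a)) * Φ E y) = vir B (add T hg) z m Φ := by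
  have hz := hR.nz
  have hD := Cfg.dv_nonneg T hz
  set H := lw kg (z.y (m a)) - pr ℂ (pv (z.y (m a)) g) with hH
  have hH0 : 0 ≤ H := fun V => by
    rw [val_zero, val_sub, val_pr h0, one_le_div₀ (RZ.pos h0)]
    exact v_pv_le (hz _) hg V
  have hc : ∀ (E : Type) [Field E] [Algebra ℂ E] (p : LP K E),
      B.c1 (lw kg ((z.red p.toPl).y (m a))) = cf B H E p := fun E _ _ p => by
    rw [c1_lw_red hB hz, cf, hH, map_sub, hB.c1_pr, sub_zero]
  have hs : Sup (z.dv T ⊓ H) ⊆ Sup (z.dv T) := Sym65.sup_mono (le_inf hD hH0) inf_le_left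
  let R : PX B K := fun E _ _ p => C (cf B H E p) - X
  have hq : qv R (cf B H) = 1 := by
    funext E _ _ p
    simp [qv, R, sub_eq_add_neg, divX_add, show ∀ x : (B.H E)[X], (-x).divX = -x.divX from
      fun x => by ext n; simp, show (X : (B.H E)[X]).divX = 1 from by
        ext n; simp [coeff_X, coeff_one]]
  have hp : Sym65.pv R 0 = cf B H := by
    funext E _ _ p
    simp [Sym65.pv, R]
  have key := h2 B hB (z.dv T) H (cpF B T z) R (evF z m Φ) hD hH0
    ((hR.livX hB).mono (hs.trans (sup_sub hz))) ((Liv.cf hB H).C.sub LivX.X)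
    ((liv_evF hΦ hz m).mono (hs.trans (sup_sub hz))) (fun E _ _ _ p hp => hR.root' hB (hs hp))
    (fun E _ _ _ p _ _ => by simp [Sym65.pv, R])
  rw [vir_eq_sm, vir_eq_sm, dv_add hg h hO h0]
  refine Eq.trans (sm_congr fun V hV h1 => ?_) (key.symm.trans (sm_congr fun W hW h1 => ?_))
  · have h3 : evF z m (fun E _ _ y => B.c1 (lw kg (y a)) * Φ E y) = cf B H * evF z m Φ := by
      funext E _ _ p
      exact congrArg (· * _) (hc E p)
    rw [hq, hp, mul_one, h3]
    split_ifs with h4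
    · rw [← Sym65.i1_cf hB (hR.liv hB hΦ m _) hV (sup_sub hz h1) h4, mul_left_comm]
    · rw [mul_assoc]
  · have := essFT_Rf hW
    have h3 : cpF B (add T hg) z (Rf W) (LP.at W) = (cpF B T z * R) (Rf W) (LP.at W) := by
      rw [← dv_add hg h hO h0] at h1
      exact (cpz_add hB hg (h.red _) (hr W hW (on_at hz h1))).trans
        (congrArg (fun x => cpF B T z (Rf W) (LP.at W) * (C x - X)) (hc _ (LP.at W)))
    change B.itg _ ((-((cpF B T z * R) (Rf W) (LP.at W)).divX).eval _ * _) = _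
    rw [← h3]
    rfl

/-- **hypersurface sections** -/
theorem endStmt_of (h2 : TwoStmt) : EndStmt := by
  intro B hB J _ _ io _ _ A _ T g kg hg c d h0 hd hG hR M _ Φ q₀ hΦ
  obtain ⟨N, hN⟩ := rk_of Tree87.rankStmt hG
  obtain ⟨N', hN'⟩ := exists_bd (add T hg)
  refine gw_congr (N := max N N') fun K K₀ I _ _ _ _ _ _ _ ξ m θ ho hn => ?_
  have h1 := fun a j => (hN' a j).trans (le_max_right N N')
  refine vir_add_eq h2 hB hg (cst_cfg ξ hd _) (hN ξ (fun _ => Bub96.nz_pt ξ _)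
    fun κ hκ => hn κ fun j => (hκ j).trans (le_max_left _ _)) (over_not_on ho hG.1)
    (over_pv ho q₀ hg h0) (fun W _ hO q => ?_) hΦ
  rw [finrank_Nm_of_rk (Bub96.tl_red hn _) hR h1 hO, finrank_Nm_of_rk (Bub96.tl_red hn _)
    (rk_of_good hG) (fun a => h1 (some a)) fun q a => hO q (some a)]

end Crest.Agent.X262.End66
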