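import Crest.Agent.X262.Coh.Basic

/-!
# Row 262, road B (helper66): an ample smooth divisor of a fourfold without classes of type
`(4, 2)` has no classes of type `(2, 0)`, `(3, 1)` (by the Hodge-Riemann relations).
-/

set_option autoImplicit false

noncomputable section

namespace Crest.Agent.X262.End66

open Crest.Agent.X277 Crest.Agent.X277.BD Crest.Agent.X262.Coh Crest.Agent.X262.Coh.Th

variable {C : Th} {D W D' : SV}

theorem typ_swap (hM : C.MAN) (hT : C.TYP) {X : SV} {p q : ℕ} (h : C.typ X p q = ⊥) :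
    C.typ X q p = ⊥ :=
  (Submodule.eq_bot_iff _).2 fun a ha => by
    have h1 := hT.cj X a ha
    rw [h, Submodule.mem_bot] at h1
    rw [← hM.cj_cj X a, h1, map_zero]

theorem typ_dual (hM : C.MAN) (hP : C.PD) (hT : C.TYP) {X : SV} {p q p' q' : ℕ}
    (hp : p + p' = X.dim) (hq : q + q' = X.dim) (h : C.typ X p q = ⊥) : C.typ X p' q' = ⊥ :=
  (Submodule.eq_bot_iff _).2 fun a ha => hT.eq_zero_of_typ hM hP ha fun i j hi hj y hy => by
    obtain rfl : i = p := by omega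
    obtain rfl : j = q := by omega
    rw [h, Submodule.mem_bot] at hy
    rw [hy, mul_zero, map_zero]

/-- no `(4, 2)`-classes on a fourfold without holomorphic two-forms -/
theorem typ42 (hM : C.MAN) (hP : C.PD) (hT : C.TYP) (hW : W.dim = 4) (h : C.typ W 2 0 = ⊥) :
    C.typ W 4 2 = ⊥ :=
  typ_dual hM hP hT (p := 0) (q := 2) (by omega) (by omega) (typ_swap hM hT h)

/-- **weak Lefschetz for two-forms** -/
theorem wl20 (hM : C.MAN) (hP : C.PD) (hT : C.TYP) (hR : C.HR) (hB : C.BC2) (j : Hom D W)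
    {a : BD ℂ W.F} (hj : IsDv j a) (hW : W.dim = 4) (hD : D.dim = 3) (h42 : C.typ W 4 2 = ⊥)
    (ν : Hom D' D) (hν : Bim ν) {m : ℕ} (hm : 0 < m)
    (hω : C.pb ν (C.pb j (C.c1 W a)) = m • C.hc D') : C.typ D 2 0 = ⊥ := by
  refine (Submodule.eq_bot_iff _).2 fun σ hσ => by_contra fun h0 => ?_
  have hD' : D'.dim = 3 := hν.dim_eq.trans hD
  have hx : C.push j σ ∈ C.typ W 3 1 := hT.push_typ hM hP j (by omega) (by omega) hσ
  have h1 : C.itg W (C.push j σ * C.cj W (C.push j σ)) =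
      m * C.itg D' (C.hc D' ^ 1 * (C.pb ν σ * C.cj D' (C.pb ν σ))) := by
    rw [hP.cj_push hM, hP.push_spec, hB j a hj, ← hP.itg_pb_bim hM hν, map_mul (C.pb ν),
      map_mul (C.pb ν), hω, hM.cj_pb, ← nsmul_eq_mul, ← map_nsmul, pow_one]
    congr 1
    rw [smul_mul_assoc, mul_smul_comm]
    congr 1
    ring
  have hσ' : C.pb ν σ ∈ C.typ D' 2 0 := hT.pb ν σ hσ
  have h2 := hR D' 2 0 1 (by omega) _ hσ'
    (fun h => h0 ((injective_iff_map_eq_zero _).1 (hP.pb_inj hM hν.dmn) σ h))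
    ((Submodule.eq_bot_iff _).1 (hT.gt D' (p := 2 + 2) (2 + 0) (by omega)) _
      (hT.mul D' (hT.hc_pow hM hP D' 2) hσ'))
  have h3 : 0 < (C.itg W (C.push j σ * C.cj W (C.push j σ))).re := by
    rw [h1]
    have : (0 : ℝ) < m := by exact_mod_cast hm
    simpa using mul_pos this (by simpa using h2)
  have h4 := hR W 3 1 0 (by omega) _ hx (fun h => by simp [h] at h3)
    ((Submodule.eq_bot_iff _).1 h42 _ (hT.mul W (hT.hc_pow hM hP W 1) hx))
  have h5 : ((-1 : ℂ) ^ 3) = -1 := by norm_num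
  rw [h5, pow_zero, one_mul, neg_one_mul, Complex.neg_re] at h4
  linarith

theorem wl31 (hM : C.MAN) (hP : C.PD) (hT : C.TYP) (hR : C.HR) (hB : C.BC2) (j : Hom D W)
    {a : BD ℂ W.F} (hj : IsDv j a) (hW : W.dim = 4) (hD : D.dim = 3) (h42 : C.typ W 4 2 = ⊥)
    (ν : Hom D' D) (hν : Bim ν) {m : ℕ} (hm : 0 < m)
    (hω : C.pb ν (C.pb j (C.c1 W a)) = m • C.hc D') : C.typ D 3 1 = ⊥ :=
  typ_dual hM hP hT (p := 0) (q := 2) (by omega) (by omega)
    (typ_swap hM hT (wl20 hM hP hT hR hB j hj hW hD h42 ν hν hm hω))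

/-- classes of types `(3, 1)` and `(1, 3)` die on an ample smooth divisor -/
theorem wl_pb (hC : C.Ax) (j : Hom D W) {a : BD ℂ W.F} (hj : IsDv j a) (hW : W.dim = 4)
    (hD : D.dim = 3) (h42 : C.typ W 4 2 = ⊥) {m : ℕ} (hm : 0 < m)
    (hω : C.pb j (C.c1 W a) = m • C.hc D) {x : C.H W}
    (hx : x ∈ C.typ W 3 1 ∨ x ∈ C.typ W 1 3) : C.pb j x = 0 := by
  have h := wl31 hC.man hC.pd hC.typ hC.hr hC.bc2 j hj hW hD h42 (idH D)
    ⟨AlgHom.id ℂ _, rfl, Function.surjective_id⟩ hm (by rw [hC.man.pb_id, hω])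
  rcases hx with hx | hx
  · exact (Submodule.eq_bot_iff _).1 h _ (hC.typ.pb j x hx)
  · exact (Submodule.eq_bot_iff _).1 (typ_swap hC.man hC.typ h) _ (hC.typ.pb j x hx)

end Crest.Agent.X262.End66
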